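import Vale.Agent.P251CA.CFClosed
import Vale.Agent.P251CD.Tp
import Mathlib.CategoryTheory.Monoidal.Braided.Reflection
import Mathlib.Topology.Maps.Proper.Basic

/-!
# Internal homs into levelwise saturated weak Hausdorff continuous functors
-/

open CategoryTheory MonoidalCategory Topology OnePoint

namespace Vale.Agent.P251CH

open Vale.Agent.P251.H Vale.Agent.P251CA Vale.Agent.P251CA.CF Vale.Agent.P251CD

/-- In a weak Hausdorff space, two maps out of a compact Hausdorff space agree on a closed set. -/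
theorem wh_isClosed_eq {Z : Type} [TopologicalSpace Z]
    (hZ : ∀ (K : CH) (g : K → Z), Continuous g → IsClosed (Set.range g))
    {K : CH} {f g : K → Z} (hf : Continuous f) (hg : Continuous g) :
    IsClosed {k | f k = g k} := by
  rw [← isOpen_compl_iff, isOpen_iff_mem_nhds]
  intro a ha
  have h1 : IsClosed ({g a} : Set Z) := by
    simpa using hZ (CH.of Unit) (fun _ => g a) continuous_const
  obtain ⟨V, hV, hVc, hVU⟩ := exists_mem_nhds_isClosed_subset
    ((h1.isOpen_compl.preimage hf).mem_nhds (show a ∈ f ⁻¹' {g a}ᶜ from ha))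
  have : CompactSpace V := isCompact_iff_compactSpace.1 hVc.isCompact
  have h2 := hZ (CH.of V) (fun v => f v.1) (hf.comp continuous_subtype_val)
  have h3 : g ⁻¹' (Set.range fun v : V => f v.1)ᶜ ∈ 𝓝 a :=
    (h2.isOpen_compl.preimage hg).mem_nhds (by
      rintro ⟨v, hv⟩
      exact hVU v.2 hv)
  filter_upwards [hV, h3] with b hb hb' e
  exact hb' ⟨⟨b, hb⟩, e⟩

/-- every continuous map into `Tp A` is a plot -/
def SatP (A : PQ) : Prop :=
  ∀ (K : CH) (g : K → Tp A), Continuous g → A.plot K (fun k => un (g k))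

/-- `Tp A` is weak Hausdorff -/
def WhP (A : PQ) : Prop :=
  ∀ (K : CH) (g : K → Tp A), Continuous g → IsClosed (Set.range g)

variable {X Y : CF}

theorem cont_eval {K L : CH} {g : K → Tp (MapCF X Y)} (hg : Continuous g) {a : Sp0}
    {x : L → OnePoint (X.obj a)} (hx : (X.obj a).plot L x) :
    Continuous (fun p : K × L => mk (fn (toH (un (g p.1))) (x p.2))) :=
  (cont_prod (X := MapCF X Y) (L := L) (f := fun p => mk (fn (toH (un p.1)) (x p.2)))
    (fun _ _ hp => cont_plot (hp a L x hx))).comp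
      ((hg.comp continuous_fst).prodMk continuous_snd)

theorem satP_mapCF (h : ∀ a, SatP (Y.obj a)) : SatP (MapCF X Y) :=
  fun K _ hg a L _ hx => h a (CH.prod K L) _ (cont_eval hg hx)

theorem whP_mapCF (h : ∀ a, WhP (Y.obj a)) : WhP (MapCF X Y) := by
  intro K g hg
  refine isClosed_iff.2 fun L p hp => ?_
  have key : IsClosed {q : K × L | g q.1 = mk (p q.2)} := by
    have e : {q : K × L | g q.1 = mk (p q.2)} = ⋂ a, ⋂ x : OnePoint (X.obj a),
        {q : K × L | mk (fn (toH (un (g q.1))) x) = mk (fn (toH (p q.2)) x)} := by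
      ext q
      simp only [Set.mem_ofPred_eq, Set.mem_iInter]
      exact ⟨fun h a x => by rw [h]; rfl, fun h => toH_injective (hom_ext h)⟩
    rw [e]
    refine isClosed_iInter fun a => isClosed_iInter fun x =>
      wh_isClosed_eq (h a) (K := CH.prod K L) ?_ ?_
    · exact (cont_eval hg ((X.obj a).plot_const (CH.of Unit) x)).comp
        (f := fun q : K × L => (q.1, ())) (by fun_prop)
    · exact (cont_eval (cont_plot hp) ((X.obj a).plot_const (CH.of Unit) x)).comp
        (f := fun q : K × L => (q.2, ())) (by fun_prop)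
  have := isClosedMap_snd_of_compactSpace _ key
  convert this using 1
  ext l
  exact ⟨fun ⟨k, hk⟩ => ⟨(k, l), hk, rfl⟩, fun ⟨q, hq, e⟩ => ⟨q.1, e ▸ hq⟩⟩

/-- all levels are saturated and weak Hausdorff -/
def GoodP (Z : CF) : Prop := ∀ a, SatP (Z.obj a) ∧ WhP (Z.obj a)

theorem goodP_iHom {Z : CF} (h : GoodP Z) (Y : CF) : GoodP (IHom Y Z) := fun b =>
  ⟨satP_mapCF (X := Y) (Y := shR Z b) fun a => (h (a ⊗ b)).1,
    whP_mapCF (X := Y) (Y := shR Z b) fun a => (h (a ⊗ b)).2⟩

theorem goodP_ihom {Z : CF} (h : GoodP Z) (Y : CF) : GoodP ((ihom Y).obj Z) := goodP_iHom h Y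

/-- The reflection onto the good objects is compatible with the tensor product. -/
theorem hten_of_good {D : Type*} [Category D] {q : D ⥤ CF} [q.Full] [q.Faithful] {ρ : CF ⥤ D}
    (adj : ρ ⊣ q) (hq : ∀ Z, GoodP (q.obj Z)) (hu : ∀ W, GoodP W → IsIso (adj.unit.app W))
    (X Y : CF) : IsIso (ρ.map (adj.unit.app X ▷ Y)) := by
  have h : ∀ (c : D) (d : CF), IsIso (adj.unit.app ((ihom d).obj (q.obj c))) :=
    fun c d => hu _ (goodP_ihom (hq c) d)
  have h' : ∀ d d' : CF, IsIso (ρ.map (adj.unit.app d ▷ d')) :=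
    ((Monoidal.Reflective.isIso_tfae adj).out 0 2).1 h
  exact h' X Y

end Vale.Agent.P251CH
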